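import Vale.Agent.P347.H941.Diag
import Vale.Agent.P347.H941.Full
import Vale.Agent.P347.H941.Defs2

/-! Hand-in for P347: subpolynomial query complexity for every condition number, every accuracy
and potentials with unknown mode. -/

open MeasureTheory Filter

namespace Vale.Agent.Results.P347.EveryConditionNumber

open Vale.Agent.P347

/-- (1) The dimension exponent of `Q(d)` is `0`. (2) The class `V_d` is contained in
`WellCond d 2 0`. (3) For every `δ > 0` there is `C` such that for ALL dimensions `d`, condition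
numbers `κ`, radii `R` and accuracies `ε` at most `C κ (κ d (1 + R) / ε) ^ δ` queries suffice for
the total variation error `ε`, for every `C^2` potential with Hessian between `I` and `κ I` and
`‖∇V(0)‖ ≤ R`. -/
theorem result :
    (Tendsto (fun d : ℕ => Real.log (Q d) / Real.log d) atTop (nhds 0) ∧
      limsup (fun d : ℕ => ((Real.log (Q d) / Real.log d : ℝ) : EReal)) atTop = 0) ∧
    (∀ d : ℕ, PotClass d ⊆ WellCond d 2 0) ∧
    ∀ δ : ℝ, 0 < δ → ∃ C : ℝ, 1 ≤ C ∧ ∀ (d : ℕ) (κ R ε : ℝ), 1 ≤ d → 1 ≤ κ → 0 ≤ R →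
      0 < ε → ε ≤ 1 → ∃ q : ℕ, (q : ℝ) ≤ C * κ * (κ * d * (1 + R) / ε) ^ δ ∧
        ∃ A : Algo d q, A.SamplesWithin (WellCond d κ R) ε := by
  have hT := tendsto_log_div (f := Q) (fun δ hδ => Q_le hδ)
  refine ⟨⟨hT, ((continuous_coe_real_ereal.tendsto 0).comp hT).limsup_eq⟩, fun d V hV => ?_, ?_⟩
  · refine ⟨hV.1, ?_, hV.2.2.2⟩
    rw [hV.2.2.1, norm_zero]
  · exact K.full

end Vale.Agent.Results.P347.EveryConditionNumber
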