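import Vale.Agent.P347.H941.Diag

/-! Hand-in for P347: subpolynomial query complexity at every polynomial accuracy. -/

open MeasureTheory Filter

namespace Vale.Agent.Results.P347.PolynomialAccuracy

open Vale.Agent.P347

/-- (1) The dimension exponent of the query complexity `Q(d)` (total variation `1/10`) is `0`.
(2) The same at every polynomial accuracy: for all `K`, `δ > 0` and all large `d`, at most `d ^ δ`
queries suffice for the total variation error `d ^ (-K)` on the whole class `V_d`.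
(3) One sequence of algorithms makes `d ^ o(1)` queries and has errors `ε d = o(d ^ (-K))` for
every `K`. -/
theorem result :
    (Tendsto (fun d : ℕ => Real.log (Q d) / Real.log d) atTop (nhds 0) ∧
      limsup (fun d : ℕ => ((Real.log (Q d) / Real.log d : ℝ) : EReal)) atTop = 0) ∧
    (∀ (K : ℕ) (δ : ℝ), 0 < δ → ∀ᶠ d : ℕ in atTop, ∃ q : ℕ, (q : ℝ) ≤ (d : ℝ) ^ δ ∧
      ∃ A : Algo d q, A.Within (1 / (d : ℝ) ^ K)) ∧
    (∀ K : ℕ, Tendsto (fun d : ℕ => Real.log (QAt d (1 / (d : ℝ) ^ K)) / Real.log d)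
      atTop (nhds 0)) ∧
    ∃ (q : ℕ → ℕ) (A : ∀ d, Algo d (q d)) (ε : ℕ → ℝ), (∀ d, (A d).Within (ε d)) ∧
      Tendsto (fun d : ℕ => Real.log (q d) / Real.log d) atTop (nhds 0) ∧
      ∀ K : ℕ, Tendsto (fun d : ℕ => (d : ℝ) ^ K * ε d) atTop (nhds 0) := by
  have hT := tendsto_log_div (f := Q) (fun δ hδ => Q_le hδ)
  exact ⟨⟨hT, ((continuous_coe_real_ereal.tendsto 0).comp hT).limsup_eq⟩,
    fun K δ hδ => acc_exists K hδ,
    fun K => tendsto_log_div (f := fun d => QAt d (1 / (d : ℝ) ^ K)) (fun δ hδ => QAt_le K hδ),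
    one_sequence⟩

end Vale.Agent.Results.P347.PolynomialAccuracy
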